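import Vale.Agent.P134R.Final

/-!
# P134: De Giorgi's conjecture for rotation classes in dimensions four to seven
-/

namespace Vale.Agent.Results.P134.RotationClasses

/-- Allen-Cahn solutions on `ℝ^(k + m + 1)`, monotone in the last variable and invariant under the
rotations of the first `k` variables about some centre, are one-dimensional for
`(k, m) = (2, 2)` and for `m = 1`, `2 ≤ k ≤ 5`. -/
theorem result :
    ∀ k m : ℕ, (k = 2 ∧ m = 2) ∨ (m = 1 ∧ 2 ≤ k ∧ k ≤ 5) →
      ∀ u : EuclideanSpace ℝ (Fin (k + (m + 1))) → ℝ, ContDiff ℝ 2 u →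
        (∀ x, Laplacian.laplacian u x = u x ^ 3 - u x) → (∀ x, |u x| ≤ 1) →
        (∀ x, 0 < fderiv ℝ u x (EuclideanSpace.single (Fin.natAdd k (Fin.last m)) 1)) →
        (∃ c : Fin k → ℝ, ∀ x y : EuclideanSpace ℝ (Fin (k + (m + 1))),
          ∑ i : Fin k, (x (Fin.castAdd (m + 1) i) - c i) ^ 2
            = ∑ i : Fin k, (y (Fin.castAdd (m + 1) i) - c i) ^ 2 →
          (∀ j, x (Fin.natAdd k j) = y (Fin.natAdd k j)) → u x = u y) →
        ∃ e : EuclideanSpace ℝ (Fin (k + (m + 1))), ‖e‖ = 1 ∧ ∃ h : ℝ → ℝ,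
          ∀ x, u x = h (inner ℝ e x) := by
  rintro k m hkm u hu heq hb hpos ⟨c, hc⟩
  refine Vale.Agent.P134R.rot_one_dim (k := k) (m := m) ?_ ?_ ?_ ?_ hu heq hb hpos c hc
  all_goals rcases hkm with ⟨rfl, rfl⟩ | ⟨rfl, h1, h2⟩
  all_goals first
    | omega
    | (norm_num; done)
    | (interval_cases k <;> norm_num)

end Vale.Agent.Results.P134.RotationClasses
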