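import Vale.Agent.P134A.Slice

/-!
# P134: monotone solutions are one-dimensional on average over transversal slices
-/

namespace Vale.Agent.Results.P134.SliceAverages

open MeasureTheory

/-- `u` is a `C²` solution of `Δu = u³ - u` with `|u| ≤ 1`, increasing in the last variable. -/
def IsMonotoneSol (k : ℕ) (u : EuclideanSpace ℝ (Fin (k + 3)) → ℝ) : Prop :=
  ContDiff ℝ 2 u ∧ (∀ x, Laplacian.laplacian u x = u x ^ 3 - u x) ∧ (∀ x, |u x| ≤ 1) ∧
    ∀ x, 0 < fderiv ℝ u x (EuclideanSpace.single (Fin.natAdd k (2 : Fin 3)) 1)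

/-- The `i`-th partial derivative. -/
noncomputable def partialDer {n : ℕ} (i : Fin n) (f : EuclideanSpace ℝ (Fin n) → ℝ)
    (x : EuclideanSpace ℝ (Fin n)) : ℝ :=
  fderiv ℝ f x (EuclideanSpace.single i 1)

/-- `∑ (uᵢ u_jq - u_j u_iq)²`. -/
noncomputable def dirDefect {n : ℕ} (u : EuclideanSpace ℝ (Fin n) → ℝ)
    (x : EuclideanSpace ℝ (Fin n)) : ℝ :=
  ∑ q, ∑ i, ∑ j, (partialDer i u x * partialDer q (partialDer j u) x
    - partialDer j u x * partialDer q (partialDer i u) x) ^ 2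

/-- The vector `(t, 0, 0, 0)`. -/
noncomputable def slicePoint (k : ℕ) (t : Fin k → ℝ) : EuclideanSpace ℝ (Fin (k + 3)) :=
  ∑ i, t i • EuclideanSpace.single (Fin.castAdd 3 i) 1

/-- Returns of positive upper Banach density under shifts of the first `k` variables. -/
def IsRecurrent (k : ℕ) (u : EuclideanSpace ℝ (Fin (k + 3)) → ℝ) : Prop :=
  ∀ R ε : ℝ, 0 < ε → ∃ c : ℝ, 0 < c ∧ ∀ L₁ : ℝ, ∃ L, L₁ ≤ L ∧ ∃ a : Fin k → ℝ,
    c * L ^ k ≤ (volume : Measure (Fin k → ℝ)).real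
      {t | t ∈ Set.Icc (fun _ => -L) (fun _ => L) ∧
        ∀ x, ‖x‖ ≤ R → |u (x + slicePoint k (a + t)) - u x| ≤ ε}

/-- For every `k`, on `ℝ^(k+3)`: (A) the failure of `∇u` to have a locally constant direction has
mean zero over every slice of the first `k` variables, uniformly in the slice and the solution;
(B) recurrent solutions are one-dimensional. -/
theorem result :
    ∀ k : ℕ,
      (∀ ε : ℝ, 0 < ε → ∃ L₀ : ℝ, ∀ u, IsMonotoneSol k u → ∀ L : ℝ, L₀ ≤ L → ∀ x₀,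
        ∫ t in Set.Icc (fun _ : Fin k => -L) (fun _ => L), dirDefect u (x₀ + slicePoint k t)
          ≤ ε * L ^ k) ∧
      (∀ u, IsMonotoneSol k u → IsRecurrent k u →
        ∃ e : EuclideanSpace ℝ (Fin (k + 3)), ‖e‖ = 1 ∧ ∃ h : ℝ → ℝ,
          ∀ x, u x = h (inner ℝ e x)) := by
  intro k
  have hmon : ∀ u : Vale.Agent.P134.Sp (k + (2 + 1)) → ℝ, IsMonotoneSol k u →
      Vale.Agent.P134A.Mon u := fun u ⟨hu, he, hb, hp⟩ =>
    ⟨⟨hu, fun x => (Vale.Agent.P134.laplacian_eq_sum hu x).symm.trans (he x)⟩, hb, hp⟩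
  refine ⟨fun ε hε => ?_, fun u hu hrec => ?_⟩
  · obtain ⟨L₀, hL₀⟩ := (Vale.Agent.P134A.mono_slice k hε).exists_forall_of_atTop
    refine ⟨L₀, fun u hu L hL x₀ => le_trans (le_of_eq ?_)
      (hL₀ L hL _ ((hmon u hu).shift x₀))⟩
    refine setIntegral_congr_fun measurableSet_Icc fun t _ => ?_
    rw [Vale.Agent.P134A.df_shift]
    exact congrArg (Vale.Agent.P134A.df u) (add_comm x₀ (Vale.Agent.P134A.sh (m := 2 + 1) t))
  · exact Vale.Agent.P134A.one_dim hu.1 hu.2.2.2 (Vale.Agent.P134A.recurrent (hmon u hu) hrec)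

end Vale.Agent.Results.P134.SliceAverages
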